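import Vale.Agent.P144DT.Main
import Vale.Agent.P144DR.Blk

/-!
The assembly of the blocks with the contact terms.
-/

namespace Vale.Agent.P144DU

open Filter Topology MeasureTheory Vale.Agent.P144 Vale.Agent.P144Z U2D AN Vale.Agent.P144F
open Vale.Agent.P144DD Vale.Agent.P144DT Vale.Agent.P144DR

theorem udp_of {D : Set ℂ} {E₀ E : Fam} {Zσ Zε : ℝ} (h : UDR D E₀ E Zσ Zε) :
    UDP D E₀ E Zσ Zε := by
  intro n m s hs
  obtain ⟨θ, hθ, h⟩ := h n m s hs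
  refine ⟨θ, hθ, fun ε hε => ?_⟩
  have t : ∀ᶠ a in 𝓝[>] (0 : ℝ), a ^ θ ≤ ε := by
    have : Tendsto (fun a : ℝ => a ^ θ) (𝓝 0) (𝓝 ((0 : ℝ) ^ θ)) :=
      (Real.continuousAt_rpow_const 0 θ (Or.inr hθ.le)).tendsto
    rw [Real.zero_rpow hθ.ne'] at this
    exact nhdsWithin_le_nhds (this.eventually (ge_mem_nhds hε))
  filter_upwards [h, t] with a h1 h2 p hn hm hp hq using (h1 p hn hm hp hq).trans h2

theorem loc_self (D : Set ℂ) (E : Fam) : LOC D E E := fun _ _ _ _ => ⟨1, one_pos, by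
  filter_upwards [self_mem_nhdsWithin] with a ha y j _ _
  rw [sub_self, abs_zero, zero_mul]
  exact (Real.rpow_pos_of_pos ha _).le⟩

theorem renLim_of {D : Set ℂ} {E₀ E : Fam} {κ₀ κ : ℝ → Fin 2 → Fin 2 → ℝ} {Zσ Zε : ℝ}
    {T : ∀ n m : ℕ, (Pos n m → ℝ) → ℝ} (h1 : RenDiff D E₀ E κ₀ κ Zσ Zε)
    (h2 : RenLim D E₀ κ₀ 1 1 T) : RenLim D E κ Zσ Zε T := fun n m j F hF => by
  simpa using (h1 n m j F hF).add ((h2 n m j F hF).const_mul (Zσ ^ n * Zε ^ m))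

theorem renLim_congr {D : Set ℂ} {E E' : Fam} {κ : ℝ → Fin 2 → Fin 2 → ℝ} {Zσ Zε : ℝ}
    {T : ∀ n m : ℕ, (Pos n m → ℝ) → ℝ} (h : ∀ a > 0, ∀ p, corr a (E a) p = corr a (E' a) p)
    (h2 : RenLim D E' κ Zσ Zε T) : RenLim D E κ Zσ Zε T := fun n m j F hF => by
  refine (h2 n m j F hF).congr' ?_
  filter_upwards [self_mem_nhdsWithin] with a ha
  simp only [ren, h a ha]

theorem prob_fam {μ : Measure Config} (h : IsProbabilityMeasure μ) : Prob (famOf μ) :=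
  ⟨fun _ => μ, fun _ => h, fun _ _ _ => rfl⟩

theorem blkT2 : BlkT2 := by
  intro hA hP hB hM hH hI hZ hV hV0 hW hH2 hI2 J hJ
  obtain ⟨κ, -, -, h⟩ := Results.P144.AAAAAll.result
  obtain ⟨C, CD, ⟨E', hE'⟩, hC, hD, -⟩ := h J hJ
  obtain ⟨ν₀, -, hν₀⟩ := rep_plane hE'
  have s0 := hν₀ 1
  generalize ν₀ 1 = μ₀ at s0
  have hE : PlaneFam J 0 (fun _ => 0) (Kc / J) (famOf μ₀) :=
    ⟨fun _ => μ₀, fun _ _ => s0, fun _ _ => rfl⟩
  have i0 : P144DR.Inv μ₀ := ⟨s0.1, s0.2.1⟩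
  obtain ⟨cD, cP⟩ := hM J hJ
  obtain ⟨v1, v2, v3⟩ := hV0 J hJ μ₀ s0
  obtain ⟨εW, w0, hW⟩ := hW
  have hC' : ∀ p, Good Set.univ p → (∀ E₀, PlaneFam J 0 (fun _ => 0) (Kc / J) E₀ →
      Lim E₀ p (one C p)) ∧ (∀ j, one C { p with j := j } = one C p) ∧
      (p.m = 0 → Even p.n → 0 < one C p) := fun p hp => by
    simpa only [one_good C hp, one_j C hp] using hC p hp
  have hD' : ∀ D b, P144Y.Nice D b → ∀ p, Good D p → Lim (crit J D b) p (one (CD D b) p) ∧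
      (∀ j, one (CD D b) { p with j := j } = one (CD D b) p) ∧
      (p.m = 0 → (b = none ∧ Even p.n ∨ b = some fun _ _ => true) → 0 < one (CD D b) p) :=
    fun D b hN p hp => by simpa only [one_good (CD D b) hp, one_j (CD D b) hp] using hD D b hN p hp
  obtain ⟨ν, n1, n2, n3⟩ := plane_field (C := one C) hJ (one_zero C _ rfl)
    (fun p hp => (hC' p hp).1) hE
  have hν : ∀ D b, ∃ νD, P144Y.Nice D b → IsLaw D (one (CD D b)) νD ∧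
      FieldLim D (crit J D b) 1 νD ∧ ∀ (E : Fam) (μ : ℝ → Measure Config) (Z Z' : ℝ),
        (∀ a, IsProbabilityMeasure (μ a)) → P144F.Rep E μ → LocDiff D (crit J D b) E Z Z' →
          (∀ K ⊆ D, IsCompact K → ZB μ K) → FieldLim D E Z νD := fun D b => by
    by_cases hN : P144Y.Nice D b
    · have o : IsOpen D ∧ Bornology.IsBounded D :=
        hN.cases.elim (fun h => ⟨h.1.1, h.1.2.1⟩) fun h => ⟨h.1.1, h.1.2.1⟩
      exact (dom_field (b := b) (C := one (CD D b)) hJ o.1 o.2 (one_zero _ _ rfl)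
        fun p hp => (hD' D b hN p hp).1).imp fun _ h _ => h
    · exact ⟨fun _ _ => 0, fun h => absurd h hN⟩
  choose νD hν using hν
  have dP : ∀ E₀, PlaneFam J 0 (fun _ => 0) (Kc / J) E₀ → DistLim Set.univ E₀ 1 1 (one C) :=
    fun E₀ h => hI _ _ _ isOpen_univ (prob_plane h) (cP _ h) (one_zero C)
      fun p hp => (hC' p hp).1 _ h
  replace hI2 := hI2 μ₀ (one C) i0 (cP _ hE) fun p hp => ⟨(hC' p hp).1 _ hE, (hC' p hp).2.1⟩
  obtain ⟨T, t1, t2⟩ := hI2 _ _ _ isOpen_univ (prob_fam s0.1) (cP _ hE)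
    ((hW _ w0 le_rfl).elim fun L h => (h L le_rfl J hJ μ₀ s0).1) (one_zero C)
    fun p hp => ⟨(hC' p hp).1 _ hE, (hC' p hp).2.1⟩
  have hT : ∀ D b, ∃ TD, (∃ T, RenLim D (crit J D b) (k0 μ₀) 1 1 T ∧ Extends D (one (CD D b)) T) →
      RenLim D (crit J D b) (k0 μ₀) 1 1 TD ∧ Extends D (one (CD D b)) TD := fun D b => by
    by_cases h : ∃ T, RenLim D (crit J D b) (k0 μ₀) 1 1 T ∧ Extends D (one (CD D b)) T
    exacts [h.imp fun _ h _ => h, ⟨T, fun h' => absurd h' h⟩]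
  choose TD hT using hT
  refine ⟨one C, fun D b => one (CD D b), ν, νD, k0 μ₀, T, TD, ⟨_, hE⟩, hC',
    rp_plane hJ (one_zero C) hE fun p hp => ⟨(hC' p hp).1 _ hE, (hC' p hp).2.1⟩, n1, t2,
    fun E₀ h => ⟨n2 E₀ h, dP E₀ h, renLim_congr (v1 E₀ h) t1⟩,
    fun D b hN => ⟨hD' D b hN, (hν D b hN).1, (hν D b hN).2.1⟩, fun K hK V hV' => ?_⟩
  obtain ⟨εA, a0, hA⟩ := hA
  obtain ⟨εB, b0, hB⟩ := hB
  obtain ⟨εV, c0, hV⟩ := hV
  obtain ⟨ε, e0, e1, e2, e3, e4⟩ : ∃ ε > (0 : ℝ), ε ≤ εA ∧ ε ≤ εB ∧ ε ≤ εV ∧ ε ≤ εW :=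
    ⟨min (min εA εB) (min εV εW), by positivity, (min_le_left _ _).trans (min_le_left _ _),
      (min_le_left _ _).trans (min_le_right _ _), (min_le_right _ _).trans (min_le_left _ _),
      (min_le_right _ _).trans (min_le_right _ _)⟩
  obtain ⟨lam₀, l0, β, Zσ, Zε, a1, a2, a3, a4, a5, a6, h⟩ := par_of (ev_and
    (ev_and (ev_and (hA _ e0 e1) (hB _ e0 e2)) (ev_and (hV _ e0 e3) (ev_of (hW _ e0 e4))))
    (ev_and hP (ev_of (domG_of hK e0)))) hJ hV'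
  refine ⟨lam₀, l0, β, Zσ, Zε, a1, a2, a3, a4, a5, a6, fun lam hl => ?_⟩
  obtain ⟨h1, h2, h3, L, q, rfl, hr, e1, e2, ⟨⟨⟨qA, qB⟩, qV, qW⟩, qP, L2, qG⟩, μ, m1, m2⟩ :=
    h lam hl
  have hr' : UL.Rel J lam (β lam) q := ⟨hr.pot, hr.range, hr.mu, hr.x⟩
  rw [← e1, ← e2] at qA qP
  have uR := qP J lam _ hJ hr μ m2
  have u := fun E₀ h => udp_of (uR E₀ h)
  have l := fun E₀ h => (udiff_of (u E₀ h)).loc isOpen_univ
  have zP := hZ μ _ _ _ m1.1 m1.2.1 (u _ hE) (cP _ hE)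
  obtain ⟨v4, v5⟩ := qV J lam _ hJ hr μ m2
  obtain ⟨c, hc⟩ := hH2 μ₀ μ _ _ i0 ⟨m1.1, m1.2.1⟩ (cP _ hE) (uR _ hE)
  refine ⟨h1, h2, h3, c, ⟨μ, m1, m2, fun p hp => ident (l _ hE).diff p hp _ ((hC' p hp).1 _ hE), l,
    n3 μ _ _ m1.1 m1.2.1 (l _ hE), distLim_of (hH _ _ _ _ _ isOpen_univ (prob_plane hE)
      (prob_fam m1.1) (u _ hE) zP (cP _ hE)) (dP _ hE), renLim_of (hc _ _ _ isOpen_univ
        (prob_fam s0.1) (prob_fam m1.1) (uR _ hE) zP (cP _ hE) v2 v4 (loc_self _ _) (loc_self _ _))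
        t1⟩, fun D b hK hb => ?_⟩
  have ho : IsOpen D := Cls.isOpen hK
  have bd : Bornology.IsBounded D := (Cls.cases hK).elim (fun ⟨_, _, h⟩ => h.2.1) fun h => h.2.1
  have dG := qG D hK
  have uD := qA J lam _ hJ hr' D b dG hb
  have u := udp_of uD
  have z := qB J lam _ hJ hr' D b dG hb
  have mj := cD L _ D b L2 dG hb
  have l := (udiff_of u).loc ho
  have dd := hH _ _ _ _ _ ho (prob_dom J 0 _ _ D b) (prob_dom J lam _ _ D b) u z mj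
  have rd := hc _ _ _ ho (prob_dom J 0 _ _ D b) (prob_dom J lam _ _ D b) uD z mj
    (v3 D b ho bd hb).1 (v5 D b dG hb).1 (v3 D b ho bd hb).2 (v5 D b dG hb).2
  refine ⟨l, ident l.diff, dd, rd, fun hN => ?_⟩
  obtain ⟨t3, t4⟩ := hT D b (hI2 _ _ _ ho (prob_dom J 0 _ _ D b) mj ((qW J hJ μ₀ s0).2 D b dG hb)
    (one_zero _) fun p hp => ⟨(hD' D b hN p hp).1, (hD' D b hN p hp).2.1⟩)
  refine ⟨fun p hp => ident l.diff p hp _ (hD' D b hN p hp).1, ?_,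
    distLim_of dd (hI _ _ _ ho (prob_dom J 0 _ _ D b) mj (one_zero _)
      fun p hp => (hD' D b hN p hp).1), t4, renLim_of rd t3⟩
  obtain ⟨μ', p1, p2⟩ := prob_dom J lam q.V (β lam) D b
  exact (hν D b hN).2.2 _ μ' _ _ p1 p2 l (zb_of ho z p2)

end Vale.Agent.P144DU
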